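import Mathlib

open Finset

namespace Vale.Agent.Results.P330.AKleeneParameterBarrier

/-- The gate kinds of a generalized circuit, with their input nodes.  An `or`/`and` gate with a
single input is the gate with `a = b`. -/
inductive Gate (V : Type)
  | const (α : ℚ)
  | scale (α : ℚ) (a : V)
  | copy (a : V)
  | add (a b : V)
  | sub (a b : V)
  | less (a b : V)
  | neg (a : V)
  | disj (a b : V)
  | conj (a b : V)

/-- A generalized circuit on the node set `V`: each node is the output of at most one gate
(`gate z = some g` says that `g` is the gate with output `z`); all parameters lie in `[0,1]`. -/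
structure GCircuit (V : Type) where
  gate : V → Option (Gate V)
  const_mem : ∀ z α, gate z = some (Gate.const α) → 0 ≤ α ∧ α ≤ 1
  scale_mem : ∀ z α a, gate z = some (Gate.scale α a) → 0 ≤ α ∧ α ≤ 1

variable {V : Type}

/-- `ε`-satisfaction of a gate with output `z` under the assignment `x`. -/
def GateSat (ε : ℝ) (x : V → ℝ) (z : V) : Gate V → Prop
  | Gate.const α => |x z - (α : ℝ)| ≤ ε
  | Gate.scale α a => |x z - (α : ℝ) * x a| ≤ ε
  | Gate.copy a => |x z - x a| ≤ ε
  | Gate.add a b => |x z - min (x a + x b) 1| ≤ ε
  | Gate.sub a b => |x z - max (x a - x b) 0| ≤ ε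
  | Gate.less a b => (x a < x b - ε → 1 - ε ≤ x z) ∧ (x a > x b + ε → x z ≤ ε)
  | Gate.neg a => (x a ≤ ε → 1 - ε ≤ x z) ∧ (1 - ε ≤ x a → x z ≤ ε)
  | Gate.disj a b => ((1 - ε ≤ x a ∨ 1 - ε ≤ x b) → 1 - ε ≤ x z) ∧ ((x a ≤ ε ∧ x b ≤ ε) → x z ≤ ε)
  | Gate.conj a b => ((1 - ε ≤ x a ∧ 1 - ε ≤ x b) → 1 - ε ≤ x z) ∧ ((x a ≤ ε ∨ x b ≤ ε) → x z ≤ ε)

/-- All gates of the circuit are `ε`-satisfied. -/
def AllSat (G : GCircuit V) (ε : ℝ) (x : V → ℝ) : Prop :=
  ∀ z g, G.gate z = some g → GateSat ε x z g

open Classical in
/-- The number of gates of the circuit. -/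
noncomputable def numGates [Fintype V] (G : GCircuit V) : ℕ :=
  (univ.filter fun z => (G.gate z).isSome).card

open Classical in
/-- The number of gates `ε`-satisfied by `x`. -/
noncomputable def numSat [Fintype V] (G : GCircuit V) (ε : ℝ) (x : V → ℝ) : ℕ :=
  (univ.filter fun z => ∃ g, G.gate z = some g ∧ GateSat ε x z g).card

open Classical in
/-- One round of three-valued evaluation at tolerance `ε` (the comparisons use exact arithmetic);
arithmetic gates get a value that does not depend on their inputs. -/
noncomputable def step (G : GCircuit V) (ε : ℝ) (x : V → ℚ) (z : V) : ℚ :=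
  match G.gate z with
  | none => 1 / 2
  | some (Gate.const α) => if α ≤ 1 / 2 then 1 / 4 else 3 / 4
  | some (Gate.scale α _) => max (1 / 4) (α / 2)
  | some (Gate.copy _) => 1 / 2
  | some (Gate.add _ _) => 3 / 4
  | some (Gate.sub _ _) => 1 / 4
  | some (Gate.less a b) =>
      if (x a : ℝ) < x b - ε then 3 / 4 else if (x a : ℝ) > x b + ε then 1 / 4 else 1 / 2
  | some (Gate.neg a) =>
      if (x a : ℝ) ≤ ε then 3 / 4 else if 1 - ε ≤ (x a : ℝ) then 1 / 4 else 1 / 2
  | some (Gate.disj a b) =>
      if 1 - ε ≤ (x a : ℝ) ∨ 1 - ε ≤ (x b : ℝ) then 3 / 4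
      else if (x a : ℝ) ≤ ε ∧ (x b : ℝ) ≤ ε then 1 / 4 else 1 / 2
  | some (Gate.conj a b) =>
      if 1 - ε ≤ (x a : ℝ) ∧ 1 - ε ≤ (x b : ℝ) then 3 / 4
      else if (x a : ℝ) ≤ ε ∨ (x b : ℝ) ≤ ε then 1 / 4 else 1 / 2

/-- The assignment computed by `|V| + 1` rounds of `step` from the all-`1/2` assignment. -/
noncomputable def kleene [Fintype V] (G : GCircuit V) (ε : ℝ) : V → ℚ :=
  (step G ε)^[Fintype.card V + 1] fun _ => 1 / 2

open Classical in
/-- One round for the second assignment: constants get their exact value, `neg` gates are evaluated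
in three values, all other nodes get `1/2`. -/
noncomputable def step2 (G : GCircuit V) (ε : ℝ) (x : V → ℚ) (z : V) : ℚ :=
  match G.gate z with
  | some (Gate.const α) => α
  | some (Gate.neg a) =>
      if (x a : ℝ) ≤ ε then 1 else if 1 - ε ≤ (x a : ℝ) then 0 else 1 / 2
  | _ => 1 / 2

/-- The assignment computed by `|V| + 1` rounds of `step2` from the all-`1/2` assignment. -/
noncomputable def constNeg [Fintype V] (G : GCircuit V) (ε : ℝ) : V → ℚ :=
  (step2 G ε)^[Fintype.card V + 1] fun _ => 1 / 2

/-! ### Generic stabilisation -/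

/-- information order: `x` refines to `y` -/
def Refines (x y : V → ℚ) : Prop := ∀ v, x v = 1 / 2 ∨ x v = y v

lemma iterate_stable [Fintype V] (F : (V → ℚ) → V → ℚ) (P : (V → ℚ) → Prop)
    (hP0 : P fun _ => 1 / 2) (hPF : ∀ x, P x → P (F x))
    (hF : ∀ x y, P x → Refines x y → Refines (F x) (F y)) :
    F (F^[Fintype.card V + 1] fun _ => 1 / 2) = F^[Fintype.card V + 1] fun _ => 1 / 2 := by
  classical
  set X : ℕ → V → ℚ := fun t => F^[t] fun _ => 1 / 2 with hX
  have hsucc : ∀ t, X (t + 1) = F (X t) := by
    intro t
    simp only [hX, Function.iterate_succ_apply']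
  have hPX : ∀ t, P (X t) := by
    intro t
    induction t with
    | zero => exact hP0
    | succ t ih =>
      rw [hsucc t]
      exact hPF _ ih
  have hmono : ∀ t, Refines (X t) (X (t + 1)) := by
    intro t
    induction t with
    | zero => intro v; left; rfl
    | succ t ih =>
      have h := hF _ _ (hPX t) ih
      rw [← hsucc t, ← hsucc (t + 1)] at h
      exact h
  set c : ℕ → ℕ := fun t => (univ.filter fun v => X t v ≠ 1 / 2).card with hc
  have hstep : ∀ t, X (t + 1) ≠ X t → c t + 1 ≤ c (t + 1) := by
    intro t hne
    obtain ⟨v, hv⟩ : ∃ v, X (t + 1) v ≠ X t v := by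
      by_contra hcon
      push Not at hcon
      exact hne (funext hcon)
    have hv1 : X t v = 1 / 2 := by
      rcases hmono t v with h | h
      · exact h
      · exact absurd h.symm hv
    have hsub : insert v (univ.filter fun u => X t u ≠ 1 / 2)
        ⊆ univ.filter fun u => X (t + 1) u ≠ 1 / 2 := by
      intro u hu
      rcases Finset.mem_insert.1 hu with rfl | hu
      · simp only [Finset.mem_filter, Finset.mem_univ, true_and]
        rw [hv1] at hv
        exact hv
      · simp only [Finset.mem_filter, Finset.mem_univ, true_and] at hu ⊢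
        rcases hmono t u with h | h
        · exact absurd h hu
        · rw [← h]; exact hu
    have hnot : v ∉ univ.filter fun u => X t u ≠ 1 / 2 := by
      simp [hv1]
    have := Finset.card_le_card hsub
    rw [Finset.card_insert_of_notMem hnot] at this
    exact this
  have hfix : ∃ t, t ≤ Fintype.card V ∧ X (t + 1) = X t := by
    by_contra hcon
    push Not at hcon
    have hgrow : ∀ t, t ≤ Fintype.card V + 1 → t ≤ c t := by
      intro t
      induction t with
      | zero => intro _; exact Nat.zero_le _
      | succ t ih =>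
        intro ht
        have h1 := ih (by omega)
        have h2 := hstep t (hcon t (by omega))
        omega
    have h3 := hgrow (Fintype.card V + 1) le_rfl
    have h4 : c (Fintype.card V + 1) ≤ Fintype.card V := by
      simp only [hc]
      exact Finset.card_le_univ _
    omega
  obtain ⟨t, ht, hfixt⟩ := hfix
  have hall : ∀ s, X (t + s) = X t := by
    intro s
    induction s with
    | zero => rfl
    | succ s ih =>
      have : X (t + (s + 1)) = F (X (t + s)) := hsucc (t + s)
      rw [this, ih, ← hsucc t, hfixt]
  have h5 : X (Fintype.card V + 1) = X t := by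
    have := hall (Fintype.card V + 1 - t)
    rwa [show t + (Fintype.card V + 1 - t) = Fintype.card V + 1 by omega] at this
  have h6 : F (X (Fintype.card V + 1)) = X (Fintype.card V + 1) := by
    rw [h5, ← hsucc t, hfixt]
  simpa only [hX] using h6

/-! ### First assignment -/

lemma step_mem (G : GCircuit V) (ε : ℝ) (x : V → ℚ) (z : V) :
    1 / 4 ≤ step G ε x z ∧ step G ε x z ≤ 3 / 4 := by
  unfold step
  cases hg : G.gate z with
  | none => norm_num
  | some g =>
    cases g with
    | const α => dsimp only; split_ifs <;> norm_num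
    | scale α a =>
      have := (G.scale_mem z α a hg).2
      dsimp only
      constructor
      · exact le_max_left _ _
      · apply max_le <;> [norm_num; linarith]
    | copy a => norm_num
    | add a b => norm_num
    | sub a b => norm_num
    | less a b => dsimp only; split_ifs <;> norm_num
    | neg a => dsimp only; split_ifs <;> norm_num
    | disj a b => dsimp only; split_ifs <;> norm_num
    | conj a b => dsimp only; split_ifs <;> norm_num

/-- Values of the iterates lie in `[1/4,3/4]`, which is what the monotonicity below uses. -/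
def InRange (x : V → ℚ) : Prop := ∀ v, (1 / 4 : ℚ) ≤ x v ∧ x v ≤ 3 / 4

lemma step_refines (G : GCircuit V) {ε : ℝ} (h1 : 1 / 4 ≤ ε) (h2 : ε < 1 / 2) (x y : V → ℚ)
    (hxr : InRange x) (hxy : Refines x y) : Refines (step G ε x) (step G ε y) := by
  have hcast : ((1 / 2 : ℚ) : ℝ) = 1 / 2 := by norm_num
  have hr : ∀ v, (1 / 4 : ℝ) ≤ (x v : ℝ) ∧ (x v : ℝ) ≤ 3 / 4 := by
    intro v
    obtain ⟨h3, h4⟩ := hxr v
    have h5 : ((1 / 4 : ℚ) : ℝ) ≤ (x v : ℝ) := Rat.cast_le.2 h3
    have h6 : (x v : ℝ) ≤ ((3 / 4 : ℚ) : ℝ) := Rat.cast_le.2 h4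
    norm_num at h5 h6
    constructor <;> linarith
  have key : ∀ v, ((x v : ℝ) = 1 / 2 ∨ y v = x v) := by
    intro v
    rcases hxy v with h | h
    · left; rw [h]; norm_num
    · right; exact h.symm
  intro z
  unfold step
  cases hg : G.gate z with
  | none => right; rfl
  | some g =>
    cases g with
    | const α => right; rfl
    | scale α a => right; rfl
    | copy a => right; rfl
    | add a b => right; rfl
    | sub a b => right; rfl
    | less a b =>
      dsimp only
      have ha := hr a
      have hb := hr b
      by_cases c1 : (x a : ℝ) < x b - ε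
      · right
        have hxa : y a = x a := by
          rcases key a with h | h
          · exfalso; rw [h] at c1; linarith
          · exact h
        have hxb : y b = x b := by
          rcases key b with h | h
          · exfalso; rw [h] at c1; linarith
          · exact h
        rw [hxa, hxb]
      · by_cases c2 : (x a : ℝ) > x b + ε
        · right
          have hxa : y a = x a := by
            rcases key a with h | h
            · exfalso; rw [h] at c2; linarith
            · exact h
          have hxb : y b = x b := by
            rcases key b with h | h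
            · exfalso; rw [h] at c2; linarith
            · exact h
          rw [hxa, hxb]
        · left
          rw [if_neg c1, if_neg c2]
    | neg a =>
      dsimp only
      by_cases c1 : (x a : ℝ) ≤ ε
      · right
        have hxa : y a = x a := by
          rcases key a with h | h
          · exfalso; rw [h] at c1; linarith
          · exact h
        rw [hxa]
      · by_cases c2 : 1 - ε ≤ (x a : ℝ)
        · right
          have hxa : y a = x a := by
            rcases key a with h | h
            · exfalso; rw [h] at c2; linarith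
            · exact h
          rw [hxa]
        · left
          rw [if_neg c1, if_neg c2]
    | disj a b =>
      dsimp only
      have up : ∀ v, 1 - ε ≤ (x v : ℝ) → y v = x v := by
        intro v hv
        rcases key v with h | h
        · exfalso; rw [h] at hv; linarith
        · exact h
      have dn : ∀ v, (x v : ℝ) ≤ ε → y v = x v := by
        intro v hv
        rcases key v with h | h
        · exfalso; rw [h] at hv; linarith
        · exact h
      by_cases c1 : 1 - ε ≤ (x a : ℝ) ∨ 1 - ε ≤ (x b : ℝ)
      · right
        rw [if_pos c1]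
        have c1' : 1 - ε ≤ (y a : ℝ) ∨ 1 - ε ≤ (y b : ℝ) := by
          rcases c1 with h | h
          · left; rw [up a h]; exact h
          · right; rw [up b h]; exact h
        rw [if_pos c1']
      · by_cases c2 : (x a : ℝ) ≤ ε ∧ (x b : ℝ) ≤ ε
        · right
          rw [dn a c2.1, dn b c2.2]
        · left
          rw [if_neg c1, if_neg c2]
    | conj a b =>
      dsimp only
      have up : ∀ v, 1 - ε ≤ (x v : ℝ) → y v = x v := by
        intro v hv
        rcases key v with h | h
        · exfalso; rw [h] at hv; linarith
        · exact h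
      have dn : ∀ v, (x v : ℝ) ≤ ε → y v = x v := by
        intro v hv
        rcases key v with h | h
        · exfalso; rw [h] at hv; linarith
        · exact h
      by_cases c1 : 1 - ε ≤ (x a : ℝ) ∧ 1 - ε ≤ (x b : ℝ)
      · right
        rw [up a c1.1, up b c1.2]
      · by_cases c2 : (x a : ℝ) ≤ ε ∨ (x b : ℝ) ≤ ε
        · right
          rw [if_neg c1, if_pos c2]
          have c1' : ¬ (1 - ε ≤ (y a : ℝ) ∧ 1 - ε ≤ (y b : ℝ)) := by
            rintro ⟨h3, h4⟩
            rcases c2 with h | h
            · rw [dn a h] at h3; linarith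
            · rw [dn b h] at h4; linarith
          have c2' : (y a : ℝ) ≤ ε ∨ (y b : ℝ) ≤ ε := by
            rcases c2 with h | h
            · left; rw [dn a h]; exact h
            · right; rw [dn b h]; exact h
          rw [if_neg c1', if_pos c2']
        · left
          rw [if_neg c1, if_neg c2]

lemma rat_range {x : V → ℚ} (hx : InRange x) (v : V) :
    (1 / 4 : ℝ) ≤ (x v : ℝ) ∧ (x v : ℝ) ≤ 3 / 4 := by
  obtain ⟨h3, h4⟩ := hx v
  have h5 : ((1 / 4 : ℚ) : ℝ) ≤ (x v : ℝ) := Rat.cast_le.2 h3
  have h6 : (x v : ℝ) ≤ ((3 / 4 : ℚ) : ℝ) := Rat.cast_le.2 h4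
  norm_num at h5 h6
  constructor <;> linarith

lemma kleene_fix [Fintype V] (G : GCircuit V) {ε : ℝ} (h1 : 1 / 4 ≤ ε) (h2 : ε < 1 / 2) :
    step G ε (kleene G ε) = kleene G ε := by
  unfold kleene
  refine iterate_stable (step G ε) InRange ?_ ?_ ?_
  · intro v; norm_num
  · intro x _ v; exact step_mem G ε x v
  · intro x y hx hxy
    exact step_refines G h1 h2 x y hx hxy

lemma kleene_range [Fintype V] (G : GCircuit V) (ε : ℝ) : InRange (kleene G ε) := by
  intro v
  unfold kleene
  rw [Function.iterate_succ_apply']
  exact step_mem G ε _ v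

/-- The fixed point satisfies all gates. -/
lemma kleene_sat [Fintype V] (G : GCircuit V) {ε : ℝ} (h1 : 1 / 4 ≤ ε) (h2 : ε < 1 / 2) :
    AllSat G ε fun v => (kleene G ε v : ℝ) := by
  intro z g hg
  have hfix := congrFun (kleene_fix G h1 h2) z
  have hr := rat_range (kleene_range G ε)
  set x := kleene G ε with hx
  unfold step at hfix
  rw [hg] at hfix
  cases g with
  | const α =>
    have hα := G.const_mem z α hg
    have h3 : (0 : ℝ) ≤ (α : ℝ) := by exact_mod_cast hα.1
    have h4 : (α : ℝ) ≤ 1 := by exact_mod_cast hα.2
    simp only [GateSat]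
    dsimp only at hfix
    split_ifs at hfix with hc
    · have hc' : (α : ℝ) ≤ ((1 / 2 : ℚ) : ℝ) := Rat.cast_le.2 hc
      norm_num at hc'
      rw [← hfix, abs_le]
      push_cast
      constructor <;> linarith
    · have hc' : ((1 / 2 : ℚ) : ℝ) ≤ (α : ℝ) := Rat.cast_le.2 (le_of_not_ge hc)
      norm_num at hc'
      rw [← hfix, abs_le]
      push_cast
      constructor <;> linarith
  | scale α a =>
    have hα := G.scale_mem z α a hg
    have h3 : (0 : ℝ) ≤ (α : ℝ) := by exact_mod_cast hα.1
    have h4 : (α : ℝ) ≤ 1 := by exact_mod_cast hα.2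
    simp only [GateSat]
    dsimp only at hfix
    rw [← hfix]
    push_cast
    have ha := hr a
    rcases le_total ((1 : ℝ) / 4) ((α : ℝ) / 2) with hc | hc
    · rw [max_eq_right hc, abs_le]
      constructor <;> nlinarith [ha.1, ha.2]
    · rw [max_eq_left hc, abs_le]
      constructor <;> nlinarith [ha.1, ha.2]
  | copy a =>
    simp only [GateSat]
    dsimp only at hfix
    rw [← hfix, abs_le]
    push_cast
    have ha := hr a
    constructor <;> linarith [ha.1, ha.2]
  | add a b =>
    simp only [GateSat]
    dsimp only at hfix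
    rw [← hfix, abs_le]
    push_cast
    have ha := hr a
    have hb := hr b
    rcases le_total ((x a : ℝ) + x b) 1 with hc | hc
    · rw [min_eq_left hc]
      constructor <;> linarith [ha.1, ha.2, hb.1, hb.2]
    · rw [min_eq_right hc]
      constructor <;> linarith [ha.1, ha.2, hb.1, hb.2]
  | sub a b =>
    simp only [GateSat]
    dsimp only at hfix
    rw [← hfix, abs_le]
    push_cast
    have ha := hr a
    have hb := hr b
    rcases le_total ((x a : ℝ) - x b) 0 with hc | hc
    · rw [max_eq_right hc]
      constructor <;> linarith [ha.1, ha.2, hb.1, hb.2]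
    · rw [max_eq_left hc]
      constructor <;> linarith [ha.1, ha.2, hb.1, hb.2]
  | less a b =>
    simp only [GateSat]
    dsimp only at hfix
    constructor
    · intro hc
      rw [if_pos hc] at hfix
      rw [← hfix]; push_cast; linarith
    · intro hc
      have hnot : ¬ (x a : ℝ) < x b - ε := by
        intro h; linarith
      rw [if_neg hnot, if_pos hc] at hfix
      rw [← hfix]; push_cast; linarith
  | neg a =>
    simp only [GateSat]
    dsimp only at hfix
    constructor
    · intro hc
      rw [if_pos hc] at hfix
      rw [← hfix]; push_cast; linarith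
    · intro hc
      have hnot : ¬ (x a : ℝ) ≤ ε := by
        intro h; linarith
      rw [if_neg hnot, if_pos hc] at hfix
      rw [← hfix]; push_cast; linarith
  | disj a b =>
    simp only [GateSat]
    dsimp only at hfix
    constructor
    · intro hc
      rw [if_pos hc] at hfix
      rw [← hfix]; push_cast; linarith
    · intro hc
      have hnot : ¬ (1 - ε ≤ (x a : ℝ) ∨ 1 - ε ≤ (x b : ℝ)) := by
        rintro (h | h)
        · linarith [hc.1]
        · linarith [hc.2]
      rw [if_neg hnot, if_pos hc] at hfix
      rw [← hfix]; push_cast; linarith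
  | conj a b =>
    simp only [GateSat]
    dsimp only at hfix
    constructor
    · intro hc
      rw [if_pos hc] at hfix
      rw [← hfix]; push_cast; linarith
    · intro hc
      have hnot : ¬ (1 - ε ≤ (x a : ℝ) ∧ 1 - ε ≤ (x b : ℝ)) := by
        rintro ⟨h3, h4⟩
        rcases hc with h | h
        · linarith
        · linarith
      rw [if_neg hnot, if_pos hc] at hfix
      rw [← hfix]; push_cast; linarith

/-- The all-`1/2` assignment satisfies all gates when `ε ≥ 1/2`. -/
lemma half_sat (G : GCircuit V) {ε : ℝ} (h1 : 1 / 2 ≤ ε) :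
    AllSat G ε fun _ => ((1 / 2 : ℚ) : ℝ) := by
  intro z g hg
  have hc : ((1 / 2 : ℚ) : ℝ) = 1 / 2 := by norm_num
  cases g with
  | const α =>
    have hα := G.const_mem z α hg
    have h3 : (0 : ℝ) ≤ (α : ℝ) := by exact_mod_cast hα.1
    have h4 : (α : ℝ) ≤ 1 := by exact_mod_cast hα.2
    simp only [GateSat, hc]
    rw [abs_le]
    constructor <;> linarith
  | scale α a =>
    have hα := G.scale_mem z α a hg
    have h3 : (0 : ℝ) ≤ (α : ℝ) := by exact_mod_cast hα.1
    have h4 : (α : ℝ) ≤ 1 := by exact_mod_cast hα.2
    simp only [GateSat, hc]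
    rw [abs_le]
    constructor <;> linarith
  | copy a =>
    simp only [GateSat, hc]
    rw [abs_le]
    constructor <;> linarith
  | add a b =>
    simp only [GateSat, hc]
    rw [show ((1 : ℝ) / 2 + 1 / 2) = 1 by norm_num, min_self, abs_le]
    constructor <;> linarith
  | sub a b =>
    simp only [GateSat, hc]
    rw [show ((1 : ℝ) / 2 - 1 / 2) = 0 by norm_num, max_self, abs_le]
    constructor <;> linarith
  | less a b =>
    simp only [GateSat, hc]
    constructor
    · intro h; linarith
    · intro h; linarith
  | neg a =>
    simp only [GateSat, hc]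
    constructor
    · intro _; linarith
    · intro _; linarith
  | disj a b =>
    simp only [GateSat, hc]
    constructor
    · intro _; linarith
    · intro _; linarith
  | conj a b =>
    simp only [GateSat, hc]
    constructor
    · intro _; linarith
    · intro _; linarith

/-! ### Second assignment -/

/-- values of the second iteration are `1/2`, constants, `0`, `1`; only `neg` outputs matter -/
lemma step2_refines (G : GCircuit V) {ε : ℝ} (h1 : ε < 1 / 2) (x y : V → ℚ)
    (hxy : Refines x y) : Refines (step2 G ε x) (step2 G ε y) := by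
  have key : ∀ v, ((x v : ℝ) = 1 / 2 ∨ y v = x v) := by
    intro v
    rcases hxy v with h | h
    · left; rw [h]; norm_num
    · right; exact h.symm
  intro z
  unfold step2
  cases hg : G.gate z with
  | none => right; rfl
  | some g =>
    cases g with
    | const α => right; rfl
    | scale α a => right; rfl
    | copy a => right; rfl
    | add a b => right; rfl
    | sub a b => right; rfl
    | less a b => right; rfl
    | disj a b => right; rfl
    | conj a b => right; rfl
    | neg a =>
      dsimp only
      by_cases c1 : (x a : ℝ) ≤ ε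
      · right
        have hxa : y a = x a := by
          rcases key a with h | h
          · exfalso; rw [h] at c1; linarith
          · exact h
        rw [hxa]
      · by_cases c2 : 1 - ε ≤ (x a : ℝ)
        · right
          have hxa : y a = x a := by
            rcases key a with h | h
            · exfalso; rw [h] at c2; linarith
            · exact h
          rw [hxa]
        · left
          rw [if_neg c1, if_neg c2]

lemma constNeg_fix [Fintype V] (G : GCircuit V) {ε : ℝ} (h1 : ε < 1 / 2) :
    step2 G ε (constNeg G ε) = constNeg G ε := by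
  unfold constNeg
  refine iterate_stable (step2 G ε) (fun _ => True) trivial (fun _ _ => trivial) ?_
  intro x y _ hxy
  exact step2_refines G h1 x y hxy

/-- `constNeg` satisfies every `const` gate and every `neg` gate. -/
lemma constNeg_sat [Fintype V] (G : GCircuit V) {ε : ℝ} (h0 : 0 < ε) (h1 : ε < 1 / 2) (z : V)
    (g : Gate V) (hg : G.gate z = some g)
    (hcase : (∃ α, g = Gate.const α) ∨ (∃ a, g = Gate.neg a)) :
    GateSat ε (fun v => (constNeg G ε v : ℝ)) z g := by
  have hfix := congrFun (constNeg_fix G h1) z
  set x := constNeg G ε with hx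
  unfold step2 at hfix
  rw [hg] at hfix
  rcases hcase with ⟨α, rfl⟩ | ⟨a, rfl⟩
  · dsimp only at hfix
    simp only [GateSat]
    rw [← hfix, sub_self, abs_zero]
    exact h0.le
  · dsimp only at hfix
    simp only [GateSat]
    constructor
    · intro hc
      rw [if_pos hc] at hfix
      rw [← hfix]; push_cast; linarith
    · intro hc
      have hnot : ¬ (x a : ℝ) ≤ ε := by
        intro h; linarith
      rw [if_neg hnot, if_pos hc] at hfix
      rw [← hfix]; push_cast; linarith

/-- The all-zero assignment satisfies every gate that is neither `const` nor `neg`. -/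
lemma zero_sat {ε : ℝ} (h0 : 0 < ε) (h1 : ε < 1 / 2) (z : V) (g : Gate V)
    (hcase : ¬ ((∃ α, g = Gate.const α) ∨ (∃ a, g = Gate.neg a))) :
    GateSat ε (fun _ => ((0 : ℚ) : ℝ)) z g := by
  have hc : ((0 : ℚ) : ℝ) = 0 := by norm_num
  cases g with
  | const α => exact absurd (Or.inl ⟨α, rfl⟩) hcase
  | neg a => exact absurd (Or.inr ⟨a, rfl⟩) hcase
  | scale α a =>
    simp only [GateSat, hc]
    rw [mul_zero, sub_zero, abs_zero]
    exact h0.le
  | copy a =>
    simp only [GateSat, hc]
    rw [sub_zero, abs_zero]
    exact h0.le
  | add a b =>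
    simp only [GateSat, hc]
    rw [add_zero, min_eq_left (by norm_num), sub_zero, abs_zero]
    exact h0.le
  | sub a b =>
    simp only [GateSat, hc]
    rw [sub_zero, max_self, sub_zero, abs_zero]
    exact h0.le
  | less a b =>
    simp only [GateSat, hc]
    constructor
    · intro h; linarith
    · intro h; linarith
  | disj a b =>
    simp only [GateSat, hc]
    constructor
    · rintro (h | h) <;> exfalso <;> linarith
    · intro _; exact h0.le
  | conj a b =>
    simp only [GateSat, hc]
    constructor
    · rintro ⟨h, _⟩; exfalso; linarith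
    · intro _; exact h0.le

/-- **Parameter barrier for the PCP-for-PPAD conjecture.**
(1) For every generalized circuit and every real `ε ≥ 1/4`, an explicit rational assignment with
values in `[0,1]`, namely `kleene G ε` for `ε < 1/2` and the all-`1/2` assignment for `ε ≥ 1/2`,
`ε`-satisfies all gates.
(2) For every `0 < ε < 1/2`, one of the two explicit assignments `constNeg G ε` and all-zero
`ε`-satisfies at least half of the gates. -/
theorem result {V : Type} [Fintype V] (G : GCircuit V) :
    (∀ ε : ℝ, 1 / 4 ≤ ε → ε < 1 / 2 →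
      AllSat G ε (fun v => (kleene G ε v : ℝ)) ∧
        ∀ v, (1 / 4 : ℚ) ≤ kleene G ε v ∧ kleene G ε v ≤ 3 / 4) ∧
    (∀ ε : ℝ, 1 / 2 ≤ ε → AllSat G ε (fun _ => ((1 / 2 : ℚ) : ℝ))) ∧
    (∀ ε : ℝ, 0 < ε → ε < 1 / 2 →
      numGates G ≤ 2 * numSat G ε (fun v => (constNeg G ε v : ℝ)) ∨
      numGates G ≤ 2 * numSat G ε (fun _ => ((0 : ℚ) : ℝ))) := by
  classical
  refine ⟨fun ε h1 h2 => ⟨kleene_sat G h1 h2, kleene_range G ε⟩, fun ε h1 => half_sat G h1, ?_⟩
  intro ε h0 h1
  have hsum : numGates G ≤ numSat G ε (fun v => (constNeg G ε v : ℝ))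
      + numSat G ε (fun _ => ((0 : ℚ) : ℝ)) := by
    unfold numGates numSat
    refine le_trans (Finset.card_le_card ?_) (Finset.card_union_le _ _)
    intro z hz
    simp only [Finset.mem_filter, Finset.mem_univ, true_and, Finset.mem_union] at hz ⊢
    obtain ⟨g, hg⟩ := Option.isSome_iff_exists.1 hz
    by_cases hcase : (∃ α, g = Gate.const α) ∨ (∃ a, g = Gate.neg a)
    · left
      exact ⟨g, hg, constNeg_sat G h0 h1 z g hg hcase⟩
    · right
      exact ⟨g, hg, zero_sat h0 h1 z g hcase⟩
  omega

end Vale.Agent.Results.P330.AKleeneParameterBarrier
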